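import Vale.Agent.P325.H379.K2.LO

/-!
# The values of strings are spread out
-/

namespace Vale.Agent.P325.H379

open Finset Vale.Agent.P325.K2

/-- Different members of the set have distance at least `d`. -/
def Sep (d : ℕ) (A : Finset ℕ) : Prop := ∀ i ∈ A, ∀ j ∈ A, i < j → i + d ≤ j

theorem Sep.mono {d : ℕ} {A B : Finset ℕ} (h : Sep d A) (hB : B ⊆ A) : Sep d B :=
  fun i hi j hj hij => h i (hB hi) j (hB hj) hij

theorem choose_mono_left {m j i : ℕ} (h : j + i ≤ m / 2) : m.choose j ≤ m.choose (j + i) := by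
  induction i with
  | zero => simp
  | succ i ih =>
    refine (ih (by omega)).trans ?_
    exact Nat.choose_le_succ_of_lt_half_left (by omega)

/-- The left part. -/
theorem sum_left {m d : ℕ} {A : Finset ℕ} (hA : Sep d A) (h : ∀ j ∈ A, j + d ≤ m / 2) :
    d * ∑ j ∈ A, m.choose j ≤ 2 ^ m := by
  calc d * ∑ j ∈ A, m.choose j = ∑ j ∈ A, ∑ _i ∈ range d, m.choose j := by
        simp [Finset.mul_sum]
    _ ≤ ∑ j ∈ A, ∑ i ∈ range d, m.choose (j + i) := by
        refine Finset.sum_le_sum fun j hj => Finset.sum_le_sum fun i hi => ?_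
        have h1 := h j hj
        have h2 := Finset.mem_range.1 hi
        exact choose_mono_left (by omega)
    _ = ∑ p ∈ A ×ˢ range d, m.choose (p.1 + p.2) := by rw [Finset.sum_product]
    _ = ∑ t ∈ (A ×ˢ range d).image (fun p => p.1 + p.2), m.choose t := by
        rw [Finset.sum_image]
        rintro ⟨j, i⟩ hp ⟨j', i'⟩ hp' heq
        simp only [Finset.coe_product, Set.mem_prod, Finset.mem_coe, Finset.mem_range] at hp hp'
        simp only at heq
        rcases lt_trichotomy j j' with h1 | h1 | h1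
        · have := hA j hp.1 j' hp'.1 h1
          omega
        · subst h1
          simp only [Prod.mk.injEq, true_and]
          omega
        · have := hA j' hp'.1 j hp.1 h1
          omega
    _ ≤ ∑ t ∈ range (m + 1), m.choose t := by
        refine Finset.sum_le_sum_of_subset_of_nonneg ?_ fun _ _ _ => Nat.zero_le _
        intro t ht
        obtain ⟨p, hp, rfl⟩ := Finset.mem_image.1 ht
        rw [Finset.mem_product, Finset.mem_range] at hp
        have h1 := h p.1 hp.1
        rw [Finset.mem_range]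
        omega
    _ = 2 ^ m := Nat.sum_range_choose m

/-- The right part. -/
theorem sum_right {m d : ℕ} {A : Finset ℕ} (hA : Sep d A) (hm : ∀ j ∈ A, j ≤ m)
    (h : ∀ j ∈ A, m - j + d ≤ m / 2) : d * ∑ j ∈ A, m.choose j ≤ 2 ^ m := by
  have h1 : ∑ j ∈ A, m.choose j = ∑ j ∈ A.image (fun j => m - j), m.choose j := by
    rw [Finset.sum_image]
    · refine Finset.sum_congr rfl fun j hj => ?_
      exact (Nat.choose_symm (hm j hj)).symm
    · intro i hi j hj hij
      have := hm i hi
      have := hm j hj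
      simp only at hij
      omega
  rw [h1]
  refine sum_left ?_ ?_
  · intro i' hi' j' hj' hij
    obtain ⟨i, hi, rfl⟩ := Finset.mem_image.1 hi'
    obtain ⟨j, hj, rfl⟩ := Finset.mem_image.1 hj'
    have := hm i hi
    have := hm j hj
    have := hA j hj i hi (by omega)
    omega
  · intro j' hj'
    obtain ⟨j, hj, rfl⟩ := Finset.mem_image.1 hj'
    exact h j hj

/-- The middle part. -/
theorem sum_mid {m d : ℕ} {A : Finset ℕ} (hd : 0 < d) (hA : Sep d A)
    (h1 : ∀ j ∈ A, m / 2 < j + d) (h2 : ∀ j ∈ A, m / 2 < m - j + d) (hm : ∀ j ∈ A, j ≤ m) :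
    ∑ j ∈ A, m.choose j ≤ 3 * m.choose (m / 2) := by
  calc ∑ j ∈ A, m.choose j ≤ ∑ _j ∈ A, m.choose (m / 2) :=
        Finset.sum_le_sum fun j _ => Nat.choose_le_middle j m
    _ = #A * m.choose (m / 2) := by simp
    _ ≤ 3 * m.choose (m / 2) := by
        refine Nat.mul_le_mul_right _ ?_
        calc #A ≤ #(range 3) := by
              refine Finset.card_le_card_of_injOn (fun j => (j + d - m / 2) / d) ?_ ?_
              · intro j hj
                have h3 := h1 j hj
                have h4 := h2 j hj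
                have h5 := hm j hj
                simp only [Finset.coe_range, Set.mem_Iio]
                rw [Nat.div_lt_iff_lt_mul hd]
                omega
              · intro i hi j hj hij
                simp only at hij
                have h3 := h1 i hi
                have h4 := h1 j hj
                rcases lt_trichotomy i j with h5 | h5 | h5
                · exfalso
                  have h6 := hA i hi j hj h5
                  have h7 : (i + d - m / 2) / d + 1 ≤ (j + d - m / 2) / d := by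
                    rw [← Nat.add_div_right _ hd]
                    exact Nat.div_le_div_right (by omega)
                  omega
                · exact h5
                · exfalso
                  have h6 := hA j hj i hi h5
                  have h7 : (j + d - m / 2) / d + 1 ≤ (i + d - m / 2) / d := by
                    rw [← Nat.add_div_right _ hd]
                    exact Nat.div_le_div_right (by omega)
                  omega
          _ = 3 := Finset.card_range 3

/-- Separated sets have small weight. -/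
theorem sum_sep {L : ℕ} (hL : 0 < L) {A : Finset ℕ} (hA : Sep (2 * L) A)
    (hm : ∀ j ∈ A, j ≤ L * L) :
    (∑ j ∈ A, ((L * L).choose j : ℝ)) ≤ 4 / L * 2 ^ (L * L) := by
  set m := L * L with hmdef
  classical
  set A1 := A.filter fun j => j + 2 * L ≤ m / 2 with hA1
  set A2 := (A.filter fun j => ¬ j + 2 * L ≤ m / 2).filter fun j => m - j + 2 * L ≤ m / 2 with hA2
  set A3 := (A.filter fun j => ¬ j + 2 * L ≤ m / 2).filter fun j => ¬ m - j + 2 * L ≤ m / 2
    with hA3
  have hL' : (0 : ℝ) < L := by exact_mod_cast hL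
  have e1 : ((2 * L : ℕ) : ℝ) * ∑ j ∈ A1, (m.choose j : ℝ) ≤ 2 ^ m := by
    exact_mod_cast sum_left (hA.mono (Finset.filter_subset _ _))
      fun j hj => (Finset.mem_filter.1 hj).2
  have e2 : ((2 * L : ℕ) : ℝ) * ∑ j ∈ A2, (m.choose j : ℝ) ≤ 2 ^ m := by
    exact_mod_cast sum_right
      (hA.mono ((Finset.filter_subset _ _).trans (Finset.filter_subset _ _)))
      (fun j hj => hm j (Finset.mem_filter.1 (Finset.mem_filter.1 hj).1).1)
      fun j hj => (Finset.mem_filter.1 hj).2
  have e3 : ∑ j ∈ A3, (m.choose j : ℝ) ≤ 3 * (m.choose (m / 2) : ℝ) := by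
    exact_mod_cast sum_mid (d := 2 * L) (by omega)
      (hA.mono ((Finset.filter_subset _ _).trans (Finset.filter_subset _ _)))
      (fun j hj => by
        have := (Finset.mem_filter.1 (Finset.mem_filter.1 hj).1).2
        omega)
      (fun j hj => by
        have := (Finset.mem_filter.1 hj).2
        omega)
      fun j hj => hm j (Finset.mem_filter.1 (Finset.mem_filter.1 hj).1).1
  have e4 : (m.choose (m / 2) : ℝ) ≤ 2 ^ m / L := by
    refine (choose_half_le m).trans ?_
    refine div_le_div_of_nonneg_left (by positivity) hL' ?_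
    refine Real.le_sqrt_of_sq_le ?_
    rw [hmdef]
    push_cast
    nlinarith
  have e5 : ∑ j ∈ A, (m.choose j : ℝ) = ∑ j ∈ A1, (m.choose j : ℝ) +
      (∑ j ∈ A2, (m.choose j : ℝ) + ∑ j ∈ A3, (m.choose j : ℝ)) := by
    rw [hA1, hA2, hA3, Finset.sum_filter_add_sum_filter_not,
      Finset.sum_filter_add_sum_filter_not]
  rw [e5]
  push_cast at e1 e2
  have e6 : ∑ j ∈ A1, (m.choose j : ℝ) ≤ 2 ^ m / (2 * L) := by
    rw [le_div_iff₀ (by positivity)]
    linarith
  have e7 : ∑ j ∈ A2, (m.choose j : ℝ) ≤ 2 ^ m / (2 * L) := by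
    rw [le_div_iff₀ (by positivity)]
    linarith
  have e8 : 4 / (L : ℝ) * 2 ^ m = 2 ^ m / (2 * L) + (2 ^ m / (2 * L) + 3 * (2 ^ m / L)) := by
    field_simp
    ring
  rw [e8]
  linarith

/-- The law of the number of ones. -/
theorem pr_count (m : ℕ) (q : ℤ → Prop) [DecidablePred q] :
    Pr (fun y : Fin m → Bool => q (∑ i, sgz (y i))) =
      (∑ j ∈ (range (m + 1)).filter fun j : ℕ => q (2 * j - m), (m.choose j : ℝ)) / 2 ^ m := by
  classical
  have h1 : ∀ y : Fin m → Bool, ∑ i, sgz (y i) =
      2 * (#(strEquiv (Fin m) (fun _ => true) y) : ℤ) - m := by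
    intro y
    have h2 : ∀ i, sgz (y i) = 2 * (if y i = true then 1 else 0) - 1 := by
      intro i
      unfold sgz
      cases y i <;> simp
    simp only [h2, Finset.sum_sub_distrib, ← Finset.mul_sum]
    simp [strEquiv, Finset.sum_boole]
  have h3 : Pr (fun y : Fin m → Bool => q (∑ i, sgz (y i))) =
      Pr (fun S : Finset (Fin m) => q (2 * (#S : ℤ) - m)) := by
    rw [← Pr_equiv (strEquiv (Fin m) (fun _ => true))
      (fun S : Finset (Fin m) => q (2 * (#S : ℤ) - m))]
    refine Pr_congr fun y => ?_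
    rw [h1]
  rw [h3, pr_finset, Fintype.card_fin]
  congr 1
  have h4 := Finset.sum_powerset_apply_card
    (fun j : ℕ => if q (2 * (j : ℤ) - m) then (1 : ℝ) else 0) (x := (univ : Finset (Fin m)))
  rw [Finset.card_univ, Fintype.card_fin] at h4
  rw [Finset.sum_filter]
  simp only [nsmul_eq_mul, mul_ite, mul_one, mul_zero] at h4
  rw [← h4, Finset.powerset_univ, Finset.sum_boole]

theorem tw_eq {L : ℕ} {V v : ℤ} (h : tw L V = v) :
    (4 * (L : ℤ) ∣ V - v) ∨ 4 * (L : ℤ) ∣ V - (2 * L - v) := by
  unfold tw at h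
  have h0 := Int.emod_add_mul_ediv (V + L) (4 * L)
  have h1 : (V + L) % (4 * L) = 2 * L + (L - v) ∨ (V + L) % (4 * L) = 2 * L - (L - v) := by
    rcases abs_choice ((V + (L : ℤ)) % (4 * L) - 2 * L) with h2 | h2
    · left; omega
    · right; omega
  rcases h1 with h1 | h1
  · right
    refine ⟨(V + L) / (4 * L), ?_⟩
    rw [h1] at h0
    linarith
  · left
    refine ⟨(V + L) / (4 * L), ?_⟩
    rw [h1] at h0
    linarith

theorem sep_class (L : ℕ) (r : ℤ) (m : ℕ) :
    Sep (2 * L) ((range (m + 1)).filter fun j : ℕ => 4 * (L : ℤ) ∣ 2 * (j : ℤ) - m - r) := by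
  intro i hi j hj hij
  have h1 := (Finset.mem_filter.1 hi).2
  have h2 := (Finset.mem_filter.1 hj).2
  have h3 : 4 * (L : ℤ) ∣ 2 * ((j : ℤ) - i) := by
    have := dvd_sub h2 h1
    have e : 2 * (j : ℤ) - m - r - (2 * (i : ℤ) - m - r) = 2 * ((j : ℤ) - i) := by ring
    rwa [e] at this
  have h4 : 2 * (L : ℤ) ∣ (j : ℤ) - i := by
    obtain ⟨c, hc⟩ := h3
    exact ⟨c, by linarith⟩
  have h5 := Int.le_of_dvd (by omega) h4
  omega

/-- Package A1. -/
theorem ballThm : BallThm := by
  classical
  refine ⟨8, by norm_num, fun L hL _ v => ?_⟩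
  have hL0 : 0 < L := by omega
  have h1 : Pr (fun y : Fin (L * L) → Bool => xv L y = v) ≤
      Pr (fun y : Fin (L * L) → Bool => 4 * (L : ℤ) ∣ (∑ i, sgz (y i)) - v) +
      Pr (fun y : Fin (L * L) → Bool => 4 * (L : ℤ) ∣ (∑ i, sgz (y i)) - (2 * L - v)) := by
    refine le_trans (Pr_mono fun y hy => ?_) (Pr_or_le _ _)
    exact tw_eq hy
  have h2 : ∀ r : ℤ, Pr (fun y : Fin (L * L) → Bool => 4 * (L : ℤ) ∣ (∑ i, sgz (y i)) - r) ≤
      4 / L := by
    intro r
    have h3 := pr_count (L * L) (fun V : ℤ => 4 * (L : ℤ) ∣ V - r)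
    rw [h3, div_le_iff₀ (by positivity)]
    refine sum_sep hL0 ?_ fun j hj => ?_
    · exact sep_class L r (L * L)
    · have := Finset.mem_range.1 (Finset.mem_filter.1 hj).1
      omega
  have e : (8 : ℝ) / L = 4 / L + 4 / L := by ring
  rw [e]
  exact h1.trans (add_le_add (h2 _) (h2 _))

end Vale.Agent.P325.H379
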