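import Vale.Agent.P325.H111.K2.Stmts

/-!
# The inequality of Erdos on the problem of Littlewood and Offord
-/

namespace Vale.Agent.P325.H379

open Finset Vale.Agent.P325.K2

/-- A bound for the central binomial coefficients. -/
theorem centralBinom_sq (m : ℕ) : (2 * m + 1) * m.centralBinom ^ 2 ≤ 4 ^ (2 * m) := by
  induction m with
  | zero => simp
  | succ m ih =>
    have h1 := Nat.succ_mul_centralBinom_succ m
    have h2 : (m + 1) ^ 2 * ((2 * (m + 1) + 1) * (m + 1).centralBinom ^ 2) ≤
        (m + 1) ^ 2 * 4 ^ (2 * (m + 1)) := by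
      calc (m + 1) ^ 2 * ((2 * (m + 1) + 1) * (m + 1).centralBinom ^ 2)
          = (2 * m + 3) * ((m + 1) * (m + 1).centralBinom) ^ 2 := by ring
        _ = (2 * m + 3) * (2 * (2 * m + 1) * m.centralBinom) ^ 2 := by rw [h1]
        _ = 4 * ((2 * m + 3) * (2 * m + 1)) * ((2 * m + 1) * m.centralBinom ^ 2) := by ring
        _ ≤ 4 * (4 * (m + 1) ^ 2) * 4 ^ (2 * m) := by
            refine Nat.mul_le_mul (Nat.mul_le_mul_left _ ?_) ih
            nlinarith
        _ = (m + 1) ^ 2 * 4 ^ (2 * (m + 1)) := by ring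
    exact Nat.le_of_mul_le_mul_left h2 (by positivity)

/-- A bound for the middle binomial coefficients. -/
theorem choose_half_sq (n : ℕ) : (n + 1) * (n.choose (n / 2)) ^ 2 ≤ 4 ^ n := by
  rcases Nat.even_or_odd' n with ⟨m, h | h⟩
  · subst h
    have h1 := centralBinom_sq m
    rw [Nat.centralBinom_eq_two_mul_choose] at h1
    have h2 : 2 * m / 2 = m := by omega
    rw [h2]
    exact h1
  · subst h
    have h1 := centralBinom_sq (m + 1)
    rw [Nat.centralBinom_eq_two_mul_choose] at h1
    have h2 : (2 * m + 1) / 2 = m := by omega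
    rw [h2]
    have h3 : (2 * (m + 1)).choose (m + 1) = 2 * (2 * m + 1).choose m := by
      have h4 : 2 * (m + 1) = (2 * m + 1) + 1 := by ring
      rw [h4, Nat.choose_succ_succ]
      have h5 : (2 * m + 1).choose m.succ = (2 * m + 1).choose m := Nat.choose_symm_half m
      rw [h5]
      ring
    rw [h3] at h1
    have h6 : 4 ^ (2 * (m + 1)) = 4 * 4 ^ (2 * m + 1) := by
      rw [← pow_succ']; congr 1
    rw [h6] at h1
    nlinarith

/-- The real form of the bound. -/
theorem choose_half_le (n : ℕ) : (n.choose (n / 2) : ℝ) ≤ 2 ^ n / Real.sqrt (n + 1) := by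
  have h := choose_half_sq n
  have h1 : ((n : ℝ) + 1) * (n.choose (n / 2) : ℝ) ^ 2 ≤ (2 ^ n) ^ 2 := by
    have h2 : (((n + 1) * (n.choose (n / 2)) ^ 2 : ℕ) : ℝ) ≤ ((4 ^ n : ℕ) : ℝ) := by
      exact_mod_cast h
    push_cast at h2
    calc _ ≤ (4 : ℝ) ^ n := h2
      _ = (2 ^ n) ^ 2 := by
        rw [← pow_mul, mul_comm n 2, pow_mul]
        norm_num
  have hs : 0 < Real.sqrt ((n : ℝ) + 1) := Real.sqrt_pos.2 (by positivity)
  rw [le_div_iff₀ hs]
  have h3 : ((n.choose (n / 2) : ℝ) * Real.sqrt (n + 1)) ^ 2 ≤ (2 ^ n) ^ 2 := by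
    rw [mul_pow, Real.sq_sqrt (by positivity)]
    linarith
  exact le_of_sq_le_sq h3 (by positivity)

/-- Strings of bits and sets. -/
def strEquiv (K : Type) [Fintype K] [DecidableEq K] (t : K → Bool) : (K → Bool) ≃ Finset K where
  toFun b := {k | b k = t k}
  invFun S := fun k => if k ∈ S then t k else !t k
  left_inv b := by
    funext k
    simp only [mem_filter, mem_univ, true_and]
    by_cases h : b k = t k
    · rw [if_pos h, h]
    · rw [if_neg h]
      cases hb : b k <;> cases ht : t k <;> simp_all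
  right_inv S := by
    ext k
    simp only [mem_filter, mem_univ, true_and]
    by_cases h : k ∈ S
    · simp [h]
    · simp [h]

theorem pr_finset (K : Type) [Fintype K] [DecidableEq K] (q : Finset K → Prop) [DecidablePred q] :
    Pr q = (#{S | q S} : ℝ) / 2 ^ Fintype.card K := by
  classical
  rw [Pr_eq_card, Fintype.card_finset]
  push_cast
  congr 2
  refine congrArg Finset.card ?_
  ext S
  simp

theorem loThm : LOThm := by
  classical
  intro K _ _ v w s hw hv
  set c : ℤ := ∑ k, (if 0 < v k then 0 else v k) with hc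
  have hsum : ∀ b : K → Bool, ∑ k, (if b k then v k else 0) =
      (∑ k ∈ strEquiv K (fun k => decide (0 < v k)) b, |v k|) + c := by
    intro b
    rw [hc, ← Finset.sum_filter_add_sum_filter_not univ
      (fun k => b k = decide (0 < v k)) (fun k => if 0 < v k then 0 else v k)]
    rw [← Finset.sum_filter_add_sum_filter_not univ
      (fun k => b k = decide (0 < v k)) (fun k => if b k then v k else 0)]
    rw [← add_assoc]
    congr 1
    · show _ = ∑ k ∈ univ.filter (fun k => b k = decide (0 < v k)), |v k| + _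
      rw [← Finset.sum_add_distrib]
      refine Finset.sum_congr rfl fun k hk => ?_
      have hk' := (Finset.mem_filter.1 hk).2
      by_cases h : 0 < v k
      · have : b k = true := by rw [hk']; simpa using h
        rw [if_pos this, if_pos h, abs_of_pos h, add_zero]
      · have : b k = false := by rw [hk']; simpa using h
        rw [if_neg (by simp [this]), if_neg h, abs_of_nonpos (not_lt.1 h)]
        ring
    · refine Finset.sum_congr rfl fun k hk => ?_
      have hk' := (Finset.mem_filter.1 hk).2
      by_cases h : 0 < v k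
      · have : b k = false := by
          cases hb : b k
          · rfl
          · exact absurd (by rw [hb]; simpa using h) hk'
        rw [if_neg (by simp [this]), if_pos h]
      · have : b k = true := by
          cases hb : b k
          · exact absurd (by rw [hb]; simpa using h) hk'
          · rfl
        rw [if_pos this, if_neg h]
  have h1 : Pr (fun b : K → Bool => s ≤ ∑ k, (if b k then v k else 0) ∧
      ∑ k, (if b k then v k else 0) < s + w) =
      Pr (fun S : Finset K => s ≤ (∑ k ∈ S, |v k|) + c ∧ (∑ k ∈ S, |v k|) + c < s + w) := by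
    rw [← Pr_equiv (strEquiv K (fun k => decide (0 < v k)))
      (fun S : Finset K => s ≤ (∑ k ∈ S, |v k|) + c ∧ (∑ k ∈ S, |v k|) + c < s + w)]
    refine Pr_congr fun b => ?_
    rw [hsum b]
  rw [h1, pr_finset]
  set 𝒜 : Finset (Finset K) :=
    {S | s ≤ (∑ k ∈ S, |v k|) + c ∧ (∑ k ∈ S, |v k|) + c < s + w} with hA
  have hanti : IsAntichain (· ⊆ ·) (𝒜 : Set (Finset K)) := by
    intro S hS T hT hne hsub
    have hS' := (Finset.mem_filter.1 (Finset.mem_coe.1 hS)).2
    have hT' := (Finset.mem_filter.1 (Finset.mem_coe.1 hT)).2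
    have hss : S ⊂ T := lt_of_le_of_ne hsub hne
    obtain ⟨k, hkT, hkS⟩ := Finset.exists_of_ssubset hss
    have h2 : (∑ k ∈ S, |v k|) + |v k| ≤ ∑ k ∈ T, |v k| := by
      have : insert k S ⊆ T := Finset.insert_subset hkT hsub
      calc (∑ k ∈ S, |v k|) + |v k| = ∑ k ∈ insert k S, |v k| := by
            rw [Finset.sum_insert hkS, add_comm]
        _ ≤ _ := Finset.sum_le_sum_of_subset_of_nonneg this fun _ _ _ => abs_nonneg _
    have h3 := hv k
    linarith [hS'.1, hT'.2]
  have hsp := hanti.sperner
  have h4 : (#𝒜 : ℝ) ≤ 2 ^ Fintype.card K / Real.sqrt (Fintype.card K + 1) :=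
    le_trans (by exact_mod_cast hsp) (choose_half_le _)
  rw [div_le_iff₀ (by positivity)]
  calc (#𝒜 : ℝ) ≤ 2 ^ Fintype.card K / Real.sqrt (Fintype.card K + 1) := h4
    _ = 1 / Real.sqrt (Fintype.card K + 1) * 2 ^ Fintype.card K := by ring

end Vale.Agent.P325.H379
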